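import Mathlib

/-!
A kernel-cheap certificate for positive semidefinite integer quadratic forms:
`M - transpose R * R` is symmetric and diagonally dominant.
-/

namespace Vale.Agent.P359.Cert

open Finset

/-- Entry `(i, j)` of a matrix stored as a list of rows (0 outside). -/
def ent (M : List (List ℤ)) (i j : ℕ) : ℤ := (M.getD i []).getD j 0

/-- The remainder `M - transpose R * R` at `(i, j)`. -/
def rest (M R : List (List ℤ)) (i j : ℕ) : ℤ :=
  ent M i j - (R.map fun row => row.getD i 0 * row.getD j 0).sum

/-- The remainder is symmetric and diagonally dominant on indices below `n`. -/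
def checkPsd (n : ℕ) (M R : List (List ℤ)) : Bool :=
  (List.range n).all fun i =>
    ((List.range n).all fun j => rest M R i j == rest M R j i) &&
    decide ((((List.range n).map fun j => if j = i then 0 else |rest M R i j|).sum) ≤ rest M R i i)

theorem list_range_sum (n : ℕ) (f : ℕ → ℤ) :
    ((List.range n).map f).sum = ∑ j : Fin n, f j.val := by
  induction n with
  | zero => simp
  | succ k ih => simp [List.range_succ, List.sum_append, ih, Fin.sum_univ_castSucc]

theorem dominant_nonneg {n : ℕ} (E : Fin n → Fin n → ℝ) (hs : ∀ i j, E i j = E j i)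
    (hd : ∀ i, ∑ j, (if j = i then 0 else |E i j|) ≤ E i i) (x : Fin n → ℝ) :
    0 ≤ ∑ i, ∑ j, E i j * x i * x j := by
  have key : ∀ i j, (if j = i then E i i * x i ^ 2 else 0) -
      (if j = i then 0 else |E i j|) * ((x i ^ 2 + x j ^ 2) / 2) ≤ E i j * x i * x j := by
    intro i j
    by_cases h : j = i
    · subst h; simp; nlinarith [sq_nonneg (x j)]
    · simp only [h, if_false, zero_sub]
      have h1 : |x i * x j| ≤ (x i ^ 2 + x j ^ 2) / 2 :=
        abs_le.2 ⟨by nlinarith [sq_nonneg (x i + x j)], by nlinarith [sq_nonneg (x i - x j)]⟩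
      have h2 : -(|E i j| * |x i * x j|) ≤ E i j * (x i * x j) := by
        rw [← abs_mul]; exact neg_abs_le _
      nlinarith [mul_le_mul_of_nonneg_left h1 (abs_nonneg (E i j))]
  refine le_trans ?_ (sum_le_sum fun i _ => sum_le_sum fun j _ => key i j)
  simp only [sum_sub_distrib, sum_ite_eq', mem_univ, if_true]
  have hhalf : ∀ i, ∑ j, (if j = i then 0 else |E i j|) * ((x i ^ 2 + x j ^ 2) / 2) =
      (x i ^ 2 / 2) * ∑ j, (if j = i then 0 else |E i j|) +
        ∑ j, (if j = i then 0 else |E i j|) * (x j ^ 2 / 2) := by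
    intro i
    rw [mul_sum, ← sum_add_distrib]
    exact sum_congr rfl fun j _ => by ring
  simp only [hhalf, sum_add_distrib]
  rw [sum_comm (f := fun i j => (if j = i then 0 else |E i j|) * (x j ^ 2 / 2))]
  have hflip : ∀ j, ∑ i, (if j = i then 0 else |E i j|) * (x j ^ 2 / 2) =
      (x j ^ 2 / 2) * ∑ i, (if i = j then 0 else |E j i|) := by
    intro j
    rw [mul_sum]
    exact sum_congr rfl fun i _ => by rw [hs i j]; simp only [eq_comm (a := j)]; ring
  simp only [hflip]
  rw [← sum_add_distrib]
  have : ∀ i, (x i ^ 2 / 2) * ∑ j, (if j = i then 0 else |E i j|) +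
      (x i ^ 2 / 2) * ∑ j, (if j = i then 0 else |E i j|) ≤ E i i * x i ^ 2 := by
    intro i; nlinarith [hd i, sq_nonneg (x i)]
  linarith [sum_le_sum fun i (_ : i ∈ (univ : Finset (Fin n))) => this i]

/-- Soundness of the certificate. -/
theorem psd_of_check {n : ℕ} {M R : List (List ℤ)} (h : checkPsd n M R = true) (x : Fin n → ℝ) :
    0 ≤ ∑ i : Fin n, ∑ j : Fin n, (ent M i j : ℝ) * x i * x j := by
  simp only [checkPsd, List.all_eq_true, List.mem_range, Bool.and_eq_true, beq_iff_eq,
    decide_eq_true_eq] at h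
  have hd : ∀ i : Fin n, ∑ j : Fin n, (if j = i then (0 : ℝ) else |(rest M R i j : ℝ)|) ≤
      (rest M R i i : ℝ) := by
    intro i
    have := (h i.val i.isLt).2
    rw [list_range_sum] at this
    have h' : ((∑ j : Fin n, if j.val = i.val then (0 : ℤ) else |rest M R i j| : ℤ) : ℝ) ≤
        (rest M R i i : ℝ) := by exact_mod_cast this
    rw [Int.cast_sum] at h'
    refine le_of_eq_of_le (sum_congr rfl fun j _ => ?_) h'
    by_cases hji : j = i
    · simp [hji]
    · simp [hji, Fin.val_ne_of_ne hji]
  have hrest := dominant_nonneg (fun i j : Fin n => (rest M R i j : ℝ))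
    (fun i j => by exact_mod_cast (h i.val i.isLt).1 j.val j.isLt) hd x
  have hsq : 0 ≤ ∑ i : Fin n, ∑ j : Fin n,
      (((R.map fun row => row.getD i.val 0 * row.getD j.val 0).sum : ℤ) : ℝ) * x i * x j := by
    clear h hd hrest
    induction R with
    | nil => simp
    | cons r R ih =>
      simp only [List.map_cons, List.sum_cons, Int.cast_add, Int.cast_mul, add_mul,
        sum_add_distrib]
      refine add_nonneg ?_ ih
      have : ∑ i : Fin n, ∑ j : Fin n, (r.getD i.val 0 : ℝ) * (r.getD j.val 0 : ℝ) * x i * x j =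
          (∑ i : Fin n, (r.getD i.val 0 : ℝ) * x i) ^ 2 := by
        rw [sq, sum_mul_sum]
        exact sum_congr rfl fun i _ => sum_congr rfl fun j _ => by ring
      rw [this]; positivity
  have : ∀ i j : Fin n, (ent M i j : ℝ) * x i * x j = (rest M R i j : ℝ) * x i * x j +
      (((R.map fun row => row.getD i.val 0 * row.getD j.val 0).sum : ℤ) : ℝ) * x i * x j := by
    intro i j; simp only [rest, Int.cast_sub]; ring
  simp only [this, sum_add_distrib]
  exact add_nonneg hrest hsq

/-- A strict version: certify `M - e`, conclude a margin `e` times the square norm. -/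
theorem psd_margin_of_check {n : ℕ} {M M' R : List (List ℤ)} {e : ℤ}
    (hM : ∀ i j : Fin n, ent M' i j = ent M i j - if i = j then e else 0)
    (h : checkPsd n M' R = true) (x : Fin n → ℝ) :
    (e : ℝ) * ∑ i, x i ^ 2 ≤ ∑ i : Fin n, ∑ j : Fin n, (ent M i j : ℝ) * x i * x j := by
  have := psd_of_check h x
  have he : ∀ i j : Fin n, (ent M' i j : ℝ) * x i * x j =
      (ent M i j : ℝ) * x i * x j - if j = i then (e : ℝ) * x i ^ 2 else 0 := by
    intro i j
    rw [hM i j]
    by_cases hij : i = j
    · subst hij; simp; ring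
    · simp [hij, Ne.symm hij]
  simp only [he, sum_sub_distrib, sum_ite_eq', mem_univ, if_true, ← mul_sum] at this
  linarith

example : checkPsd 3 [[2, 1, 0], [1, 2, 1], [0, 1, 2]] [[1, 1, 0], [0, 0, 1]] = true := by
  decide +kernel

end Vale.Agent.P359.Cert
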